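import Vale.Agent.P359.Bdl.B2
/-!
P359, question Q1 (the Laughlin spectral gap conjecture on the sphere), answered affirmatively.
The definitions used in the statement are in `Vale/Agent/P359/Stmt.lean`.
-/

namespace Vale.Agent.Results.P359.Main

open Vale.Agent.P359

/-- For each `Q ≥ 1` there is exactly one orthogonal projection `P` of `U_Q ⊗ U_Q` onto total spin
`Q - 1`; and there are `δ ≥ 1/100` and `N₀` such that for all `N ≥ N₀`, with `Q = 3 (N - 1)` and
`H = ∑_{i<j} P_{ij}`, the Laughlin vector is a nonzero fermionic vector with `H Ψ_L = 0` and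
`H ≥ δ (I - P_L)` on the fermionic space. -/
theorem result :
    (∀ Q : ℕ, 1 ≤ Q → ∃! P, IsPairProj Q P) ∧
    ∃ δ : ℝ, 1 / 100 ≤ δ ∧ ∃ N₀ : ℕ, ∀ N : ℕ, N₀ ≤ N → ∀ P, IsPairProj (3 * (N - 1)) P →
      IsFermionic (laughlinVec N) ∧ laughlinVec N ≠ 0 ∧ pairSum P (laughlinVec N) = 0 ∧
      ∀ Ψ, IsFermionic Ψ →
        δ * (braket (perpPart Ψ) (perpPart Ψ)).re ≤ (braket Ψ (pairSum P Ψ)).re :=
  laughlin_gap

end Vale.Agent.Results.P359.Main
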